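import Vale.Agent.Lib.P254U.SY.Defs

/-!
P254U/SY/Lin: linear images.
`lin_image`: `Rat_affine` (FS/Join) for the affine equivalence given by `M` (`Matrix.toLin'`,
`LinearEquiv.ofIsUnitDet` / `Matrix.toLinearEquiv'`), and `covM (M K) = M covM(K) Mᵀ` is proved inside
`isoConst_affine` (Aff.lean, `hcov`): copy that argument with `b = 0`.
`exists_white`: `covM K` is positive definite (`covM_posDef`), so `covM K = S Sᵀ` (see `Ellip_factor` in
ZP/Ellip.lean) with `det S ≠ 0`; take `M = S⁻¹`.
-/

open MeasureTheory Set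

namespace Vale.Agent.P254U

variable {n : ℕ}

private theorem Lin_cov {K : Set (Fin n → ℝ)} (hK : IsCompact K)
    (T : (Fin n → ℝ) ≃ₗ[ℝ] (Fin n → ℝ)) (M : Matrix (Fin n) (Fin n) ℝ)
    (hAx : ∀ x, T x = M.mulVec x) (hD0 : M.det ≠ 0) :
    covM (T '' K) = M * covM K * M.transpose := by
  classical
  obtain ⟨A, hA⟩ : ∃ A : (Fin n → ℝ) →ₗ[ℝ] (Fin n → ℝ), A = Matrix.toLin' M := ⟨_, rfl⟩
  have hT : ∀ x, T x = A x := by
    intro x
    rw [hAx, hA, Matrix.toLin'_apply]
  have hTi : ∀ x i, T x i = ∑ k, M i k * x k := by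
    intro x i
    rw [hAx]
    rfl
  have hDA : LinearMap.det A = M.det := by
    rw [hA, LinearMap.det_toLin']
  have hTf : (T : (Fin n → ℝ) → (Fin n → ℝ)) =
      fun x => (LinearMap.toContinuousLinearMap A) x := funext fun x => hT x
  have hcv : ∀ f : (Fin n → ℝ) → ℝ,
      ∫ y in T '' K, f y = |M.det| * ∫ x in K, f (T x) := by
    intro f
    have h1 := integral_image_eq_integral_abs_det_fderiv_smul
      (volume : Measure (Fin n → ℝ)) hK.measurableSet (f := T)
      (f' := fun _ => LinearMap.toContinuousLinearMap A) (fun x _ => by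
        rw [hTf]
        exact (LinearMap.toContinuousLinearMap A).hasFDerivAt.hasFDerivWithinAt)
      T.injective.injOn f
    rw [h1]
    simp only [LinearMap.det_toContinuousLinearMap, hDA, smul_eq_mul]
    rw [integral_const_mul]
  have hvol : (volume (T '' K)).toReal = |M.det| * (volume K).toReal := by
    have h := hcv (fun _ => 1)
    simpa [measureReal_def] using h
  have hDp : 0 < |M.det| := abs_pos.2 hD0
  have hint : ∀ f : (Fin n → ℝ) → ℝ, Continuous f → IntegrableOn f K := fun f hf =>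
    hf.continuousOn.integrableOn_compact hK
  have hcen : ∀ i, cen (T '' K) i = ∑ k, M i k * cen K k := by
    intro i
    unfold cen
    rw [hcv (fun y => y i), hvol, mul_div_mul_left _ _ hDp.ne']
    simp only [hTi]
    rw [integral_finsetSum]
    · simp only [integral_const_mul]
      rw [Finset.sum_div]
      refine Finset.sum_congr rfl fun k _ => ?_
      rw [mul_div_assoc]
    · intro k _
      exact hint _ (by fun_prop)
  ext i j
  have h1 : covM (T '' K) i j =
      (∫ x in K, (T x i - cen (T '' K) i) * (T x j - cen (T '' K) j)) / (volume K).toReal := by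
    show (∫ y in T '' K, (y i - cen (T '' K) i) * (y j - cen (T '' K) j)) /
      (volume (T '' K)).toReal = _
    rw [hcv (fun y => (y i - cen (T '' K) i) * (y j - cen (T '' K) j)), hvol,
      mul_div_mul_left _ _ hDp.ne']
  have h2 : ∀ x i, T x i - cen (T '' K) i = ∑ k, M i k * (x k - cen K k) := by
    intro x i
    rw [hTi, hcen]
    simp only [mul_sub, Finset.sum_sub_distrib]
  rw [h1]
  simp only [h2, Finset.sum_mul_sum]
  rw [integral_finsetSum]
  · rw [Finset.sum_div]
    simp only [Matrix.mul_apply, Matrix.transpose_apply, Finset.sum_mul]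
    rw [Finset.sum_comm]
    refine Finset.sum_congr rfl fun k _ => ?_
    rw [integral_finsetSum]
    · rw [Finset.sum_div]
      refine Finset.sum_congr rfl fun l _ => ?_
      have h3 : ∀ x : Fin n → ℝ, M i k * (x k - cen K k) * (M j l * (x l - cen K l)) =
          (M i k * M j l) * ((x k - cen K k) * (x l - cen K l)) := fun x => by ring
      simp only [h3, integral_const_mul]
      unfold covM
      ring
    · intro l _
      exact hint _ (by fun_prop)
  · intro k _
    exact hint _ (by fun_prop)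

theorem lin_image (hn : 1 ≤ n) {K : Set (Fin n → ℝ)} (hK : ConvBody n K)
    (M : Matrix (Fin n) (Fin n) ℝ) (hM : M.det ≠ 0) :
    ConvBody n ((fun x => M.mulVec x) '' K) ∧ Rat ((fun x => M.mulVec x) '' K) = Rat K ∧
      covM ((fun x => M.mulVec x) '' K) = M * covM K * M.transpose := by
  classical
  have hu : IsUnit M.det := isUnit_iff_ne_zero.2 hM
  obtain ⟨T, hT⟩ : ∃ T : (Fin n → ℝ) ≃ₗ[ℝ] (Fin n → ℝ), ∀ x, T x = M.mulVec x := by
    refine ⟨Matrix.toLin'OfInv (M := M⁻¹) (M' := M) (Matrix.nonsing_inv_mul M hu)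
      (Matrix.mul_nonsing_inv M hu), fun x => ?_⟩
    simp [Matrix.toLin'OfInv]
  have hT' : (fun x => M.mulVec x) = (T : (Fin n → ℝ) → (Fin n → ℝ)) := funext fun x => (hT x).symm
  obtain ⟨h1, h2⟩ := Rat_affine hn hK T.toAffineEquiv
  rw [hT']
  exact ⟨h1, h2, Lin_cov hK.compact T M hT hM⟩

open scoped MatrixOrder in
theorem exists_white {K : Set (Fin n → ℝ)} (hK : ConvBody n K) :
    ∃ M : Matrix (Fin n) (Fin n) ℝ, M.det ≠ 0 ∧ M * covM K * M.transpose = 1 := by
  have hA := covM_posDef hK
  obtain ⟨S, hS⟩ : ∃ S : Matrix (Fin n) (Fin n) ℝ, covM K = S * S.transpose := by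
    obtain ⟨B, hB⟩ := CStarAlgebra.nonneg_iff_eq_star_mul_self.mp hA.posSemidef.nonneg
    refine ⟨B.transpose, ?_⟩
    rw [hB, Matrix.transpose_transpose]
    rfl
  have hdet : (covM K).det = S.det ^ 2 := by
    rw [hS, Matrix.det_mul, Matrix.det_transpose, sq]
  have hSd : S.det ≠ 0 := by
    intro h0
    have := hA.det_pos
    rw [hdet, h0] at this
    norm_num at this
  have hu : IsUnit S.det := isUnit_iff_ne_zero.2 hSd
  refine ⟨S⁻¹, ?_, ?_⟩
  · rw [Matrix.det_nonsing_inv, Ring.inverse_eq_inv']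
    exact inv_ne_zero hSd
  · rw [hS, ← Matrix.mul_assoc, Matrix.nonsing_inv_mul S hu, Matrix.one_mul, ← Matrix.transpose_mul,
      Matrix.nonsing_inv_mul S hu, Matrix.transpose_one]

end Vale.Agent.P254U
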