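import Mathlib

/-!
P254U/SY/Rot: an orthogonal matrix with prescribed first row.
Householder: `v = u - e_0`; if `v = 0` take `O = 1`, otherwise `O = 1 - (2 / |v|^2) v vᵀ`, which is
symmetric with `O * O = 1` and `O e_0 = u` (as `|v|^2 = 2 - 2 u_0`), so the first row of `O` is `u`.
-/

namespace Vale.Agent.P254U

theorem exists_orth {n : ℕ} {u : Fin (n + 1) → ℝ} (hu : ∑ i, u i ^ 2 = 1) :
    ∃ O : Matrix (Fin (n + 1)) (Fin (n + 1)) ℝ, O * O.transpose = 1 ∧
      ∀ x : Fin (n + 1) → ℝ, O.mulVec x 0 = ∑ i, u i * x i := by
  classical
  set v : Fin (n + 1) → ℝ := fun i => u i - if i = 0 then 1 else 0 with hv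
  set s : ℝ := ∑ i, v i ^ 2 with hs
  have hs2 : s = 2 - 2 * u 0 := by
    have e : ∀ i, v i ^ 2 = u i ^ 2 - 2 * (if i = 0 then u i else 0) + if i = 0 then 1 else 0 := by
      intro i
      simp only [hv]
      split_ifs <;> ring
    rw [hs, Finset.sum_congr rfl fun i _ => e i, Finset.sum_add_distrib, Finset.sum_sub_distrib,
      ← Finset.mul_sum, hu]
    simp
    ring
  by_cases h0 : s = 0
  · have hv0 : ∀ i, v i = 0 := by
      intro i
      have h1 := (Finset.sum_eq_zero_iff_of_nonneg (fun i _ => sq_nonneg (v i))).1 h0 i
        (Finset.mem_univ i)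
      exact pow_eq_zero_iff (two_ne_zero) |>.1 h1
    refine ⟨1, by simp, fun x => ?_⟩
    rw [Matrix.one_mulVec]
    have e : ∀ i, u i * x i = if i = 0 then x i else 0 := by
      intro i
      have h1 := hv0 i
      simp only [hv] at h1
      have h2 : u i = if i = 0 then 1 else 0 := by linarith
      rw [h2]
      split_ifs <;> ring
    rw [Finset.sum_congr rfl fun i _ => e i]
    simp
  · set c : ℝ := 2 / s with hc
    have hcs : c * s = 2 := by
      rw [hc]
      field_simp
    refine ⟨Matrix.of fun i j => (if i = j then 1 else 0) - c * v i * v j, ?_, fun x => ?_⟩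
    · ext i j
      rw [Matrix.mul_apply]
      simp only [Matrix.transpose_apply, Matrix.of_apply]
      have e : ∀ k, ((if i = k then 1 else 0) - c * v i * v k) *
          ((if j = k then 1 else 0) - c * v j * v k) =
          (if i = k then (if j = k then 1 else 0) else 0) -
            (if i = k then c * v j * v k else 0) - (if j = k then c * v i * v k else 0) +
            c * v i * (c * v j) * v k ^ 2 := by
        intro k
        split_ifs <;> ring
      rw [Finset.sum_congr rfl fun k _ => e k, Finset.sum_add_distrib, Finset.sum_sub_distrib,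
        Finset.sum_sub_distrib, ← Finset.mul_sum, ← hs]
      simp only [Finset.sum_ite_eq, Finset.mem_univ, if_true]
      rw [Matrix.one_apply]
      have e2 : (if j = i then (1 : ℝ) else 0) = if i = j then 1 else 0 := by
        simp only [eq_comm]
      rw [e2]
      have e3 : c * v i * (c * v j) * s = c * v i * v j * (c * s) := by ring
      rw [e3, hcs]
      ring
    · change ∑ j, ((if (0 : Fin (n + 1)) = j then 1 else 0) - c * v 0 * v j) * x j = _
      have e : ∀ j, ((if (0 : Fin (n + 1)) = j then 1 else 0) - c * v 0 * v j) * x j =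
          (if 0 = j then x j else 0) - c * v 0 * (v j * x j) := by
        intro j
        split_ifs <;> ring
      rw [Finset.sum_congr rfl fun j _ => e j, Finset.sum_sub_distrib, ← Finset.mul_sum]
      simp only [Finset.sum_ite_eq, Finset.mem_univ, if_true]
      have hv00 : v 0 = u 0 - 1 := by simp [hv]
      have hcv : c * v 0 = -1 := by
        have : c * s = c * (-2 * v 0) := by
          rw [hs2, hv00]
          ring
        rw [hcs] at this
        linarith
      have e4 : ∀ j, v j * x j = u j * x j - if j = 0 then x j else 0 := by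
        intro j
        simp only [hv]
        split_ifs <;> ring
      rw [hcv, Finset.sum_congr rfl fun j _ => e4 j, Finset.sum_sub_distrib]
      simp

end Vale.Agent.P254U
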