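import Vale.Agent.Lib.P254U.SY.Defs

/-!
P254U/SY/Touch: the largest centred ball in a symmetric convex body and a supporting hyperplane.

Proof.  `0` is an interior point of `K` (symmetric convex with nonempty interior).  Support function
`h(u) = sSup ((fun x => ∑ u_i x_i) '' K)` (attained, `IsCompact.exists_isMaxOn`) is continuous in `u`
(bounded `K`), positive for `u ≠ 0`; let `u` minimise it on the compact unit sphere and `r = h(u)`.
If `∑ y_i^2 ≤ r^2` and `y ∉ K`: `geometric_hahn_banach_closed_point` (or `_point_closed`) gives a linear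
functional `f = ⟨w, ·⟩` with `f x < f y` for all `x ∈ K`; `w ≠ 0`, normalise `|w| = 1`; then
`r ≤ h(w) < ⟨w, y⟩ ≤ |y| ≤ r`, a contradiction (`h(w)` is attained; Cauchy-Schwarz
`Finset.sum_mul_sq_le_sq_mul_sq`).
Alternative: let `z` be a point of the (compact, nonempty) frontier of `K` nearest to `0` in the euclidean
norm, `r = |z|`; a supporting functional at `z` is a multiple of `⟨z, ·⟩`.
-/

open MeasureTheory Set

namespace Vale.Agent.P254U

variable {n : ℕ}

/-- a symmetric convex body contains a small cube around the origin -/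
private theorem Touch_small {K : Set (Fin n → ℝ)} (hK : ConvBody n K)
    (hs : ∀ x ∈ K, -x ∈ K) : ∃ ε : ℝ, 0 < ε ∧ ∀ v : Fin n → ℝ, ‖v‖ < ε → v ∈ K := by
  obtain ⟨x0, hx0⟩ := hK.interior_nonempty
  obtain ⟨ε, hε, hb⟩ := Metric.isOpen_iff.1 isOpen_interior x0 hx0
  refine ⟨ε, hε, fun v hv => ?_⟩
  have h1 : x0 + v ∈ K := by
    apply interior_subset
    apply hb
    rw [Metric.mem_ball, dist_eq_norm]
    simpa using hv
  have h2 : x0 - v ∈ K := by
    apply interior_subset
    apply hb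
    rw [Metric.mem_ball, dist_eq_norm]
    simpa using hv
  have h3 := hs _ h2
  have h4 := hK.convex h1 h3 (by norm_num : (0 : ℝ) ≤ 1 / 2) (by norm_num : (0 : ℝ) ≤ 1 / 2)
    (by norm_num)
  have h5 : (1 / 2 : ℝ) • (x0 + v) + (1 / 2 : ℝ) • (-(x0 - v)) = v := by
    ext i
    simp only [Pi.add_apply, Pi.smul_apply, Pi.neg_apply, Pi.sub_apply, smul_eq_mul]
    ring
  rw [h5] at h4
  exact h4

private theorem Touch_abs {u : Fin n → ℝ} (hu : ∑ i, u i ^ 2 = 1) (i : Fin n) : |u i| ≤ 1 := by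
  have h : u i ^ 2 ≤ ∑ j, u j ^ 2 :=
    Finset.single_le_sum (f := fun j => u j ^ 2) (fun j _ => sq_nonneg (u j)) (Finset.mem_univ i)
  rw [hu] at h
  exact abs_le_one_iff_mul_self_le_one.2 (by nlinarith)

private theorem Touch_sphere : IsCompact {u : Fin n → ℝ | ∑ i, u i ^ 2 = 1} := by
  apply Metric.isCompact_of_isClosed_isBounded
  · apply isClosed_eq
    · fun_prop
    · fun_prop
  · apply (Metric.isBounded_closedBall (x := (0 : Fin n → ℝ)) (r := 1)).subset
    intro u hu
    rw [mem_closedBall_zero_iff, pi_norm_le_iff_of_nonneg zero_le_one]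
    intro i
    rw [Real.norm_eq_abs]
    exact Touch_abs hu i

private theorem Touch_lin (f : (Fin n → ℝ) →L[ℝ] ℝ) (x : Fin n → ℝ) :
    f x = ∑ i, f (Pi.single i 1) * x i := by
  have h : x = ∑ i, x i • (Pi.single i (1 : ℝ) : Fin n → ℝ) := by
    ext j
    simp [Finset.sum_apply, Pi.single_apply]
  conv_lhs => rw [h]
  rw [map_sum]
  refine Finset.sum_congr rfl fun i _ => ?_
  rw [map_smul, smul_eq_mul, mul_comm]

theorem exists_touch (hn : 1 ≤ n) {K : Set (Fin n → ℝ)} (hK : ConvBody n K)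
    (hs : ∀ x ∈ K, -x ∈ K) :
    ∃ u : Fin n → ℝ, ∑ i, u i ^ 2 = 1 ∧ ∃ r : ℝ, 0 < r ∧ (∀ x ∈ K, ∑ i, u i * x i ≤ r) ∧
      ∀ y : Fin n → ℝ, ∑ i, y i ^ 2 ≤ r ^ 2 → y ∈ K := by
  obtain ⟨ε, hε, hsm⟩ := Touch_small hK hs
  have h0K : (0 : Fin n → ℝ) ∈ K := hsm 0 (by simpa using hε)
  have hbdd : ∀ u : Fin n → ℝ, BddAbove ((fun x : Fin n → ℝ => ∑ i, u i * x i) '' K) := fun u =>
    (hK.compact.image (by fun_prop)).bddAbove
  have hcont : Continuous (fun u : Fin n → ℝ =>
      sSup ((fun x : Fin n → ℝ => ∑ i, u i * x i) '' K)) := by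
    have := IsCompact.continuous_sSup (f := fun (u : Fin n → ℝ) (x : Fin n → ℝ) =>
      ∑ i, u i * x i) hK.compact (by
        change Continuous (fun p : (Fin n → ℝ) × (Fin n → ℝ) => ∑ i, p.1 i * p.2 i)
        fun_prop)
    exact this
  have hne : ({u : Fin n → ℝ | ∑ i, u i ^ 2 = 1}).Nonempty := by
    refine ⟨Pi.single ⟨0, hn⟩ 1, ?_⟩
    rw [Set.mem_ofPred_eq, Finset.sum_eq_single (⟨0, hn⟩ : Fin n)]
    · simp
    · intro b _ hb
      simp [hb]
    · intro h
      exact absurd (Finset.mem_univ _) h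
  obtain ⟨u, hu, hmin⟩ := Touch_sphere.exists_isMinOn hne hcont.continuousOn
  have hu' : ∑ i, u i ^ 2 = 1 := hu
  refine ⟨u, hu', sSup ((fun x : Fin n → ℝ => ∑ i, u i * x i) '' K), ?_, ?_, ?_⟩
  · have hmem : (ε / 2) • u ∈ K := by
      apply hsm
      refine lt_of_le_of_lt (b := ε / 2) ?_ (by linarith)
      rw [pi_norm_le_iff_of_nonneg (by linarith)]
      intro i
      rw [Pi.smul_apply, smul_eq_mul, Real.norm_eq_abs, abs_mul, abs_of_pos (by linarith)]
      have := Touch_abs hu' i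
      nlinarith
    have h1 : ∑ i, u i * ((ε / 2) • u) i = ε / 2 := by
      have : ∀ i, u i * ((ε / 2) • u) i = ε / 2 * u i ^ 2 := fun i => by
        rw [Pi.smul_apply, smul_eq_mul]
        ring
      simp_rw [this]
      rw [← Finset.mul_sum, hu', mul_one]
    have h2 : ε / 2 ≤ sSup ((fun x : Fin n → ℝ => ∑ i, u i * x i) '' K) :=
      le_csSup (hbdd u) ⟨(ε / 2) • u, hmem, h1⟩
    linarith
  · intro x hx
    exact le_csSup (hbdd u) ⟨x, hx, rfl⟩
  · intro y hy
    by_contra hyK
    obtain ⟨f, c, hf, hc⟩ := geometric_hahn_banach_closed_point hK.convex hK.compact.isClosed hyK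
    set w : Fin n → ℝ := fun i => f (Pi.single i 1) with hw
    have hfx : ∀ x, f x = ∑ i, w i * x i := fun x => Touch_lin f x
    have hc0 : 0 < c := by
      have := hf 0 h0K
      rwa [map_zero] at this
    have hfy : 0 < f y := hc0.trans hc
    have hS : 0 < ∑ i, w i ^ 2 := by
      rcases (Finset.sum_nonneg fun i _ => sq_nonneg (w i) :
        0 ≤ ∑ i, w i ^ 2).lt_or_eq with h | h
      · exact h
      · exfalso
        have hz : ∀ i, w i = 0 := by
          intro i
          have := (Finset.sum_eq_zero_iff_of_nonneg (fun i _ => sq_nonneg (w i))).1 h.symm i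
            (Finset.mem_univ i)
          exact pow_eq_zero_iff (two_ne_zero) |>.1 this
        rw [hfx y] at hfy
        simp [hz] at hfy
    set N : ℝ := Real.sqrt (∑ i, w i ^ 2) with hN
    have hNpos : 0 < N := Real.sqrt_pos.2 hS
    have hN2 : N ^ 2 = ∑ i, w i ^ 2 := Real.sq_sqrt hS.le
    set v : Fin n → ℝ := fun i => w i / N with hv
    have hvs : ∑ i, v i ^ 2 = 1 := by
      simp_rw [hv, div_pow]
      rw [← Finset.sum_div, ← hN2]
      exact div_self (by positivity)
    have hvx : ∀ x : Fin n → ℝ, ∑ i, v i * x i = f x / N := by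
      intro x
      rw [hfx x, Finset.sum_div]
      refine Finset.sum_congr rfl fun i _ => ?_
      rw [hv]
      ring
    have hmv : sSup ((fun x : Fin n → ℝ => ∑ i, u i * x i) '' K) ≤
        sSup ((fun x : Fin n → ℝ => ∑ i, v i * x i) '' K) := hmin hvs
    have hsv : sSup ((fun x : Fin n → ℝ => ∑ i, v i * x i) '' K) ≤ c / N := by
      apply csSup_le
      · exact ⟨_, ⟨0, h0K, rfl⟩⟩
      · rintro _ ⟨x, hx, rfl⟩
        change ∑ i, v i * x i ≤ c / N
        rw [hvx x]
        exact div_le_div_of_nonneg_right (hf x hx).le hNpos.le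
    have hlt : c / N < ∑ i, v i * y i := by
      rw [hvx y]
      exact div_lt_div_of_pos_right hc hNpos
    have hr : 0 ≤ sSup ((fun x : Fin n → ℝ => ∑ i, u i * x i) '' K) := by
      refine le_csSup (hbdd u) ⟨0, h0K, ?_⟩
      simp
    have hcs : (∑ i, v i * y i) ^ 2 ≤ (∑ i, v i ^ 2) * ∑ i, y i ^ 2 :=
      Finset.sum_mul_sq_le_sq_mul_sq _ _ _
    rw [hvs, one_mul] at hcs
    have hcs2 := abs_le_of_sq_le_sq' (hcs.trans hy) hr
    linarith [hcs2.2]

end Vale.Agent.P254U
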