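import Vale.Agent.Lib.P254U.SY.Lin
import Vale.Agent.Lib.P254U.SY.Touch
import Vale.Agent.Lib.P254U.SY.Rot

/-!
P254U/SY/Pos: the position used in the proof.
`K₁ = M K` with `M` from `exists_white`, so `covM K₁ = 1`; `u, r` from `exists_touch` for `K₁`; `O` from
`exists_orth`; `L = (r⁻¹ • O) K₁` (`lin_image` twice, or once for the product matrix).
`covM L = r⁻² O Oᵀ = r⁻² • 1`; for `x ∈ L`, `x_0 = r⁻¹ ⟨u, y⟩ ≤ 1`; if `|x|^2 ≤ 1` then
`y = r Oᵀ x` has `|y|^2 = r^2 |x|^2 ≤ r^2`, so `y ∈ K₁` and `x = r⁻¹ O y ∈ L`.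
-/

open MeasureTheory Set

namespace Vale.Agent.P254U

variable {n : ℕ}

theorem sy_pos {K : Set (Fin (n + 1) → ℝ)} (hK : ConvBody (n + 1) K) (hs : ∀ x ∈ K, -x ∈ K) :
    ∃ L : Set (Fin (n + 1) → ℝ), ConvBody (n + 1) L ∧ (∀ x ∈ L, -x ∈ L) ∧ Rat L = Rat K ∧
      eball (n + 1) ⊆ L ∧ (∀ x ∈ L, x 0 ≤ 1) ∧
      ∃ s : ℝ, 0 < s ∧ covM L = s • (1 : Matrix (Fin (n + 1)) (Fin (n + 1)) ℝ) := by
  obtain ⟨M, hM, hM1⟩ := exists_white hK
  obtain ⟨hK1, hR1, hC1⟩ := lin_image (Nat.succ_le_succ (Nat.zero_le n)) hK M hM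
  rw [hM1] at hC1
  set K₁ : Set (Fin (n + 1) → ℝ) := (fun x => M.mulVec x) '' K with hK₁
  have hs1 : ∀ x ∈ K₁, -x ∈ K₁ := by
    rintro _ ⟨x, hx, rfl⟩
    exact ⟨-x, hs x hx, Matrix.mulVec_neg x M⟩
  obtain ⟨u, hu, r, hr, hur, hball⟩ := exists_touch (Nat.succ_le_succ (Nat.zero_le n)) hK1 hs1
  obtain ⟨O, hO, hOu⟩ := exists_orth hu
  have hdO : O.det ≠ 0 := by
    intro h
    have h1 := congrArg Matrix.det hO
    rw [Matrix.det_mul, h, zero_mul, Matrix.det_one] at h1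
    exact zero_ne_one h1
  have hdN : (r⁻¹ • O).det ≠ 0 := by
    rw [Matrix.det_smul]
    exact mul_ne_zero (pow_ne_zero _ (inv_ne_zero hr.ne')) hdO
  obtain ⟨hK2, hR2, hC2⟩ := lin_image (Nat.succ_le_succ (Nat.zero_le n)) hK1 (r⁻¹ • O) hdN
  refine ⟨(fun x => (r⁻¹ • O).mulVec x) '' K₁, hK2, ?_, hR2.trans hR1, ?_, ?_,
    r⁻¹ * r⁻¹, by positivity, ?_⟩
  · rintro _ ⟨x, hx, rfl⟩
    exact ⟨-x, hs1 x hx, Matrix.mulVec_neg x _⟩
  · intro x hx
    have hx1 : ∑ i, x i ^ 2 ≤ 1 := hx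
    have e1 : O.mulVec (O.transpose.mulVec x) = x := by
      rw [Matrix.mulVec_mulVec, hO, Matrix.one_mulVec]
    refine ⟨r • O.transpose.mulVec x, hball _ ?_, ?_⟩
    · have e2 : ∑ i, (r • O.transpose.mulVec x) i ^ 2 =
          r ^ 2 * (O.transpose.mulVec x ⬝ᵥ O.transpose.mulVec x) := by
        unfold dotProduct
        rw [Finset.mul_sum]
        refine Finset.sum_congr rfl fun i _ => ?_
        rw [Pi.smul_apply, smul_eq_mul]
        ring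
      have e3 : O.transpose.mulVec x ⬝ᵥ O.transpose.mulVec x = ∑ i, x i ^ 2 := by
        conv_lhs =>
          rw [show O.transpose.mulVec x = Matrix.vecMul x O from Matrix.mulVec_transpose O x]
        rw [← Matrix.dotProduct_mulVec, ← Matrix.mulVec_transpose, e1]
        unfold dotProduct
        exact Finset.sum_congr rfl fun i _ => (sq (x i)).symm
      rw [e2, e3]
      nlinarith [sq_nonneg r]
    · change (r⁻¹ • O).mulVec (r • O.transpose.mulVec x) = x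
      rw [Matrix.smul_mulVec, Matrix.mulVec_smul, e1, smul_smul, inv_mul_cancel₀ hr.ne', one_smul]
  · rintro _ ⟨y, hy, rfl⟩
    change (r⁻¹ • O).mulVec y 0 ≤ 1
    rw [Matrix.smul_mulVec, Pi.smul_apply, smul_eq_mul, hOu]
    rw [inv_mul_le_iff₀ hr, mul_one]
    exact hur y hy
  · rw [hC2, hC1, Matrix.mul_one, Matrix.transpose_smul, Matrix.smul_mul, Matrix.mul_smul, hO,
      smul_smul]

end Vale.Agent.P254U
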