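import Vale.Agent.Lib.P254U.SY.Defs

/-!
P254U/SY/BrunnA: Brunn's theorem for the sections, in dimension 3.
For `s, t ∈ [0,1]`, `l ∈ (0,1)`: `(1-l) • A + l • B ⊆ C` for the sections `A, B, C` at `s, t` and
`(1-l) s + l t` (convexity of `K`), and `brunn_minkowski` (ZP/BM.lean, `n = 2`) gives
`(1-l) √|A| + l √|B| ≤ √|C|` if `|A|, |B| > 0`.  As `B_3 ⊆ K`, the section at `t ∈ [0,1)` contains the disc of
squared radius `1 - t^2 > 0`, so has positive volume; the section at `1` contains `0`: if `|B| = 0` use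
`(1-l) • A = (1-l) • A + l • 0 ⊆ C`, `|(1-l) • A| = (1-l)^2 |A|`.
`sec_le`: the section at `-t` is minus the section at `t`; `l = 1/2`.
-/

open MeasureTheory Set
open scoped Pointwise

namespace Vale.Agent.P254U

/-- the section -/
private def BrunnA_sec {n : ℕ} (K : Set (Fin (n + 1) → ℝ)) (t : ℝ) : Set (Fin n → ℝ) :=
  {y : Fin n → ℝ | (Fin.cons t y : Fin (n + 1) → ℝ) ∈ K}

private theorem BrunnA_secV {n : ℕ} (K : Set (Fin (n + 1) → ℝ)) (t : ℝ) :
    secV K t = (volume (BrunnA_sec K t)).toReal := rfl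

private theorem BrunnA_cont {n : ℕ} (t : ℝ) :
    Continuous (fun y : Fin n → ℝ => (Fin.cons t y : Fin (n + 1) → ℝ)) := by
  refine continuous_pi fun i => ?_
  refine Fin.cases ?_ (fun j => ?_) i
  · simp only [Fin.cons_zero]
    exact continuous_const
  · simp only [Fin.cons_succ]
    exact continuous_apply j

private theorem BrunnA_compact {n : ℕ} {K : Set (Fin (n + 1) → ℝ)} (hK : IsCompact K) (t : ℝ) :
    IsCompact (BrunnA_sec K t) := by
  have h1 : Continuous (fun x : Fin (n + 1) → ℝ => fun j : Fin n => x j.succ) := by fun_prop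
  refine (hK.image h1).of_isClosed_subset (hK.isClosed.preimage (BrunnA_cont t)) ?_
  intro y hy
  refine ⟨Fin.cons t y, hy, ?_⟩
  funext j
  exact Fin.cons_succ (α := fun _ => ℝ) t y j

private theorem BrunnA_fin {n : ℕ} {K : Set (Fin (n + 1) → ℝ)} (hK : IsCompact K) (t : ℝ) :
    volume (BrunnA_sec K t) ≠ ⊤ := (BrunnA_compact hK t).measure_lt_top.ne

private theorem BrunnA_conv {n : ℕ} {K : Set (Fin (n + 1) → ℝ)} (hK : Convex ℝ K) {s t l : ℝ}
    (h0 : 0 ≤ l) (h1 : l ≤ 1) : ∀ x ∈ BrunnA_sec K s, ∀ y ∈ BrunnA_sec K t,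
      (1 - l) • x + l • y ∈ BrunnA_sec K ((1 - l) * s + l * t) := by
  intro x hx y hy
  have h2 := hK hx hy (show 0 ≤ 1 - l by linarith) h0 (by ring)
  have h3 : (Fin.cons ((1 - l) * s + l * t) ((1 - l) • x + l • y) : Fin (n + 1) → ℝ) =
      (1 - l) • (Fin.cons s x : Fin (n + 1) → ℝ) + l • (Fin.cons t y : Fin (n + 1) → ℝ) := by
    funext i
    refine Fin.cases ?_ (fun j => ?_) i
    · simp only [Fin.cons_zero, Pi.add_apply, Pi.smul_apply, smul_eq_mul]
    · simp only [Fin.cons_succ, Pi.add_apply, Pi.smul_apply, smul_eq_mul]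
  show (Fin.cons ((1 - l) * s + l * t) ((1 - l) • x + l • y) : Fin (n + 1) → ℝ) ∈ K
  rw [h3]
  exact h2

private theorem BrunnA_ball {n : ℕ} {K : Set (Fin (n + 1) → ℝ)} (hB : eball (n + 1) ⊆ K) {t : ℝ}
    {y : Fin n → ℝ} (h : t ^ 2 + ∑ i, y i ^ 2 ≤ 1) : y ∈ BrunnA_sec K t := by
  refine hB ?_
  show ∑ i, (Fin.cons t y : Fin (n + 1) → ℝ) i ^ 2 ≤ 1
  rw [Fin.sum_univ_succ]
  simp only [Fin.cons_zero, Fin.cons_succ]
  exact h

private theorem BrunnA_pos {n : ℕ} {K : Set (Fin (n + 1) → ℝ)} (hK : IsCompact K)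
    (hB : eball (n + 1) ⊆ K) {t : ℝ} (h0 : 0 ≤ t) (h1 : t < 1) :
    0 < (volume (BrunnA_sec K t)).toReal := by
  refine ENNReal.toReal_pos ?_ (BrunnA_fin hK t)
  have ho : IsOpen {y : Fin n → ℝ | ∑ i, y i ^ 2 < 1 - t ^ 2} :=
    isOpen_lt (by fun_prop) continuous_const
  have hne : {y : Fin n → ℝ | ∑ i, y i ^ 2 < 1 - t ^ 2}.Nonempty := by
    refine ⟨0, ?_⟩
    show ∑ i : Fin n, ((0 : Fin n → ℝ) i) ^ 2 < 1 - t ^ 2
    simp only [Pi.zero_apply, ne_eq, OfNat.ofNat_ne_zero, not_false_eq_true, zero_pow,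
      Finset.sum_const_zero]
    nlinarith
  have h2 := ho.measure_pos volume hne
  have h3 : {y : Fin n → ℝ | ∑ i, y i ^ 2 < 1 - t ^ 2} ⊆ BrunnA_sec K t := by
    intro y hy
    have hy' : ∑ i, y i ^ 2 < 1 - t ^ 2 := hy
    exact BrunnA_ball hB (by linarith)
  exact (h2.trans_le (measure_mono h3)).ne'

private theorem BrunnA_cone {n : ℕ} {K : Set (Fin (n + 1) → ℝ)} (hK : IsCompact K)
    (hc : Convex ℝ K) (hB : eball (n + 1) ⊆ K) {t l : ℝ} (h0 : 0 < l) (h1 : l < 1) :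
    l ^ n * secV K t ≤ secV K ((1 - l) * 1 + l * t) := by
  have h2 : l • BrunnA_sec K t ⊆ BrunnA_sec K ((1 - l) * 1 + l * t) := by
    rintro _ ⟨y, hy, rfl⟩
    have hz : (0 : Fin n → ℝ) ∈ BrunnA_sec K 1 := by
      refine BrunnA_ball hB ?_
      simp
    have h3 := BrunnA_conv hc h0.le h1.le 0 hz y hy
    rw [smul_zero, zero_add] at h3
    exact h3
  have h4 := measure_mono (μ := volume) h2
  rw [Measure.addHaar_smul, Module.finrank_fin_fun, abs_of_pos (by positivity)] at h4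
  have h5 := ENNReal.toReal_mono (BrunnA_fin hK _) h4
  rw [ENNReal.toReal_mul, ENNReal.toReal_ofReal (by positivity)] at h5
  exact h5

private theorem BrunnA_nonneg {n : ℕ} (K : Set (Fin (n + 1) → ℝ)) (t : ℝ) : 0 ≤ secV K t :=
  ENNReal.toReal_nonneg

private theorem BrunnA_two {K : Set (Fin 3 → ℝ)} (hK : ConvBody 3 K) {s t l : ℝ} (h0 : 0 < l)
    (h1 : l < 1) (hs : 0 < secV K s) (ht : 0 < secV K t) :
    (1 - l) * Real.sqrt (secV K s) + l * Real.sqrt (secV K t) ≤
      Real.sqrt (secV K ((1 - l) * s + l * t)) := by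
  have h2 := brunn_minkowski (n := 2) (by norm_num)
    (BrunnA_compact hK.compact s).measurableSet (BrunnA_compact hK.compact t).measurableSet
    (BrunnA_compact hK.compact ((1 - l) * s + l * t)).measurableSet (BrunnA_fin hK.compact _)
    hs ht h0 h1 (BrunnA_conv hK.convex h0.le h1.le)
  rw [Real.sqrt_eq_rpow, Real.sqrt_eq_rpow, Real.sqrt_eq_rpow]
  exact_mod_cast h2

private theorem BrunnA_end {K : Set (Fin 3 → ℝ)} (hK : ConvBody 3 K) (hB : eball 3 ⊆ K)
    {t l : ℝ} (h0 : 0 < l) (h1 : l < 1) :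
    l * Real.sqrt (secV K t) ≤ Real.sqrt (secV K ((1 - l) * 1 + l * t)) := by
  have h2 := BrunnA_cone hK.compact hK.convex hB (t := t) h0 h1
  calc l * Real.sqrt (secV K t) = Real.sqrt (l ^ 2 * secV K t) := by
        rw [Real.sqrt_mul (sq_nonneg l), Real.sqrt_sq h0.le]
    _ ≤ _ := Real.sqrt_le_sqrt h2

private theorem BrunnA_one {K : Set (Fin 3 → ℝ)} (hK : ConvBody 3 K) (hB : eball 3 ⊆ K) {t : ℝ}
    (ht : t ∈ Icc (0 : ℝ) 1) (h : ¬ 0 < secV K t) : t = 1 := by
  by_contra hne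
  exact h (BrunnA_pos hK.compact hB ht.1 (lt_of_le_of_ne ht.2 hne))

theorem sec_concave {K : Set (Fin 3 → ℝ)} (hK : ConvBody 3 K) (hB : eball 3 ⊆ K) :
    ConcaveOn ℝ (Icc (0 : ℝ) 1) (fun t => Real.sqrt (secV K t)) := by
  refine ⟨convex_Icc 0 1, fun x hx y hy a b ha hb hab => ?_⟩
  simp only [smul_eq_mul]
  rcases ha.eq_or_lt with ha0 | ha0
  · have hb1 : b = 1 := by linarith
    rw [← ha0, hb1]
    simp
  rcases hb.eq_or_lt with hb0 | hb0
  · have ha1 : a = 1 := by linarith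
    rw [← hb0, ha1]
    simp
  have ha1 : a = 1 - b := by linarith
  have hb1 : b < 1 := by linarith
  have hb2 : b = 1 - a := by linarith
  have ha2 : a < 1 := by linarith
  by_cases h1 : 0 < secV K x
  · by_cases h2 : 0 < secV K y
    · have h3 := BrunnA_two hK hb0 hb1 h1 h2
      rw [← ha1] at h3
      exact h3
    · have hy1 := BrunnA_one hK hB hy h2
      have h3 := BrunnA_end hK hB (t := x) ha0 ha2
      rw [← hb2] at h3
      have h4 : secV K y = 0 := le_antisymm (not_lt.1 h2) (BrunnA_nonneg K y)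
      rw [h4, Real.sqrt_zero, mul_zero, add_zero, hy1, add_comm (a * x)]
      exact h3
  · have hx1 := BrunnA_one hK hB hx h1
    have h3 := BrunnA_end hK hB (t := y) hb0 hb1
    rw [← ha1] at h3
    have h4 : secV K x = 0 := le_antisymm (not_lt.1 h1) (BrunnA_nonneg K x)
    rw [h4, Real.sqrt_zero, mul_zero, zero_add, hx1]
    exact h3

theorem sec_le {K : Set (Fin 3 → ℝ)} (hK : ConvBody 3 K) (hs : ∀ x ∈ K, -x ∈ K)
    (hB : eball 3 ⊆ K) {t : ℝ} (ht : t ∈ Icc (0 : ℝ) 1) : secV K t ≤ secV K 0 := by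
  by_cases h1 : 0 < secV K t
  · have h2 : secV K (-t) = secV K t := by
      have h3 : BrunnA_sec K (-t) = Neg.neg ⁻¹' BrunnA_sec K t := by
        ext y
        have e : (Fin.cons t (-y) : Fin 3 → ℝ) = -(Fin.cons (-t) y : Fin 3 → ℝ) := by
          funext i
          refine Fin.cases ?_ (fun j => ?_) i
          · simp only [Fin.cons_zero, Pi.neg_apply, neg_neg]
          · simp only [Fin.cons_succ, Pi.neg_apply]
        constructor
        · intro h
          show (Fin.cons t (-y) : Fin 3 → ℝ) ∈ K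
          rw [e]
          exact hs _ h
        · intro h
          have h' : (Fin.cons t (-y) : Fin 3 → ℝ) ∈ K := h
          rw [e] at h'
          have h4 := hs _ h'
          rw [neg_neg] at h4
          exact h4
      rw [BrunnA_secV, BrunnA_secV, h3, Measure.measure_preimage_neg]
    have h3 := BrunnA_two hK (s := t) (t := -t) (l := 1 / 2) (by norm_num) (by norm_num) h1
      (by rw [h2]; exact h1)
    rw [h2] at h3
    have e : (1 - 1 / 2 : ℝ) * t + 1 / 2 * -t = 0 := by ring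
    rw [e] at h3
    have h4 : Real.sqrt (secV K t) ≤ Real.sqrt (secV K 0) := by linarith
    exact (Real.sqrt_le_sqrt_iff (BrunnA_nonneg K 0)).1 h4
  · exact (not_lt.1 h1).trans (BrunnA_nonneg K 0)

end Vale.Agent.P254U
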