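import Vale.Agent.Lib.P254U.SY.Defs

/-!
P254U/SY/BrunnB: lower bounds for volumes.
`sec_zero`: the section at `0` contains `eball 2`, and `eball_vol`, `JJ 2 0 = π` (`Real.Gamma_one_half_eq`,
`Real.Gamma_two`; ZP/Ball.lean, ZP/Defs.lean).
`sy_vol`: `eball 3 ⊆ K`, `JJ 3 0 = 4 π / 3` (`Γ(5/2) = 3/4 √π`, `Real.Gamma_add_one`).
-/

open MeasureTheory Set

namespace Vale.Agent.P254U

private lemma BrunnB_J2 : JJ 2 0 = Real.pi := by
  unfold JJ
  have h1 : ((0 : ℝ) + 1) / 2 = 1 / 2 := by norm_num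
  have h2 : (((2 : ℕ) : ℝ) - 1) / 2 = 1 / 2 := by norm_num
  have h3 : (((2 : ℕ) : ℝ) + 0) / 2 + 1 = 2 := by norm_num
  rw [h1, h2, h3, Real.Gamma_one_half_eq, Real.Gamma_two, div_one, ← Real.sqrt_eq_rpow,
    Real.mul_self_sqrt Real.pi_pos.le]

private lemma BrunnB_J3 : JJ 3 0 = 4 * Real.pi / 3 := by
  unfold JJ
  have h1 : ((0 : ℝ) + 1) / 2 = 1 / 2 := by norm_num
  have h2 : (((3 : ℕ) : ℝ) - 1) / 2 = 1 := by norm_num
  have h3 : (((3 : ℕ) : ℝ) + 0) / 2 + 1 = 1 / 2 + 1 + 1 := by norm_num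
  have h4 : Real.Gamma (1 / 2 + 1 + 1) = 3 / 4 * Real.sqrt Real.pi := by
    rw [Real.Gamma_add_one (by norm_num), Real.Gamma_add_one (by norm_num),
      Real.Gamma_one_half_eq]
    ring
  have h5 : 0 < Real.sqrt Real.pi := Real.sqrt_pos.2 Real.pi_pos
  rw [h1, h2, h3, h4, Real.Gamma_one_half_eq, Real.rpow_one]
  field_simp

theorem sec_zero {K : Set (Fin 3 → ℝ)} (hK : ConvBody 3 K) (hB : eball 3 ⊆ K) :
    Real.pi ≤ secV K 0 := by
  have h1 := eball_vol (n := 2) (by norm_num)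
  rw [BrunnB_J2] at h1
  rw [← h1]
  unfold secV
  refine ENNReal.toReal_mono ?_ (measure_mono ?_)
  · obtain ⟨R, hR⟩ := hK.compact.isBounded.subset_closedBall 0
    have h2 : {y : Fin 2 → ℝ | (Fin.cons 0 y : Fin 3 → ℝ) ∈ K} ⊆ Metric.closedBall 0 R := by
      intro y hy
      have h3 := hR hy
      rw [mem_closedBall_zero_iff] at h3 ⊢
      have hR0 : 0 ≤ R := (norm_nonneg _).trans h3
      refine (pi_norm_le_iff_of_nonneg hR0).2 fun i => ?_
      have h4 := (pi_norm_le_iff_of_nonneg hR0).1 h3 i.succ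
      rwa [Fin.cons_succ] at h4
    exact (lt_of_le_of_lt (measure_mono h2) measure_closedBall_lt_top).ne
  · intro y hy
    refine hB ?_
    have h5 : ∑ i, y i ^ 2 ≤ 1 := hy
    change ∑ i, (Fin.cons 0 y : Fin 3 → ℝ) i ^ 2 ≤ 1
    rw [Fin.sum_univ_succ]
    simpa using h5

theorem sy_vol {K : Set (Fin 3 → ℝ)} (hK : ConvBody 3 K) (hB : eball 3 ⊆ K) :
    4 * Real.pi / 3 ≤ (volume K).toReal := by
  have h1 := eball_vol (n := 3) (by norm_num)
  rw [BrunnB_J3] at h1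
  rw [← h1]
  exact ENNReal.toReal_mono hK.compact.measure_lt_top.ne (measure_mono hB)

end Vale.Agent.P254U
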