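import Vale.Agent.Lib.P254U.ZP.Main

/-!
P254U/SY: centrally symmetric convex bodies in `ℝ^3`.

THEOREM.  `K ⊂ ℝ^3` a convex body with `K = -K`.  Then `Rat K < 1`, i.e. `L_K < L_simplex`.

OVERVIEW.  (Pos) put `K` in isotropic position, `Σ_K = s I`; let `r = min_u h_K(u)` over unit
vectors (the inradius), attained at `u`; rotate `u` to `e_0` and rescale: `r = 1`, so
`B ⊆ K ⊆ {x_0 ≤ 1}` and `Σ_K = s I`.
(Fub) `g(t) = |K ∩ {x_0 = t}|`, `|K| = 2 ∫_0^1 g`, `∫_K x_0^2 = 2 ∫_0^1 t^2 g`.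
(Brunn) `√g` is concave on `[0,1]`, `g ≤ g(0)`, `g(0) ≥ π`, `|K| ≥ 4π/3`.
(One) for `φ = √g`: there is `b ∈ [0,1]` with `∫_0^1 φ^2 = φ(0)^2 (1 - b + b^2/3)` and
`∫_0^1 t^2 φ^2 ≤ φ(0)^2 (1/3 - b/2 + b^2/5)` (comparison with `φ(0) (1 - b t)`).
(Num) `(∫ t^2 g)^3 < (9/2000) (∫ g)^5`.
(Main) `s = ∫_0^1 t^2 g / ∫_0^1 g`, hence `det Σ_K = s^3 < (9/2000) (∫_0^1 g)^2 = (9/8000) |K|^2`, and
`Rat K = (8000/9) det Σ_K / |K|^2`.
-/

open MeasureTheory Set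

namespace Vale.Agent.P254U

/-- the section function in direction of the first coordinate -/
noncomputable def secV {n : ℕ} (K : Set (Fin (n + 1) → ℝ)) (t : ℝ) : ℝ :=
  (volume {y : Fin n → ℝ | (Fin.cons t y : Fin (n + 1) → ℝ) ∈ K}).toReal

end Vale.Agent.P254U
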