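import Vale.Agent.Lib.P254U.SY.Defs

/-!
P254U/SY/Fub: Fubini for the sections `x_0 = t` of a symmetric convex body in the slab `|x_0| ≤ 1`.
See Fub.lean (`integral_slices`), RV/BodyA.lean and PLG.lean (`plg_lintegral_succ`) for
`MeasurableEquiv.piFinSuccAbove` and `volume_preserving_piFinSuccAbove`:
`∫_K f = ∫ t, ∫ y in {y | Fin.cons t y ∈ K}, f (Fin.cons t y)`.  Sections with `|t| > 1` are empty, and the
section at `-t` is minus the section at `t`, so `secV K (-t) = secV K t`; the integral over `[-1,1]` is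
twice the integral over `[0,1]`.
-/

open MeasureTheory Set

namespace Vale.Agent.P254U

variable {n : ℕ}

private theorem SYFub_symm_cons (n : ℕ) (z : ℝ × (Fin n → ℝ)) :
    (MeasurableEquiv.piFinSuccAbove (fun _ : Fin (n + 1) => ℝ) 0).symm z =
      (Fin.cons z.1 z.2 : Fin (n + 1) → ℝ) := by
  funext i
  refine Fin.cases ?_ (fun i => ?_) i
  · rfl
  · rfl

private theorem SYFub_cont (t : ℝ) :
    Continuous fun y : Fin n → ℝ => (Fin.cons t y : Fin (n + 1) → ℝ) := by
  refine continuous_pi fun i => ?_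
  refine Fin.cases ?_ (fun i => ?_) i
  · simpa using continuous_const
  · simpa using continuous_apply i

private theorem SYFub_meas {K : Set (Fin (n + 1) → ℝ)} (hK : ConvBody (n + 1) K) (t : ℝ) :
    MeasurableSet {y : Fin n → ℝ | (Fin.cons t y : Fin (n + 1) → ℝ) ∈ K} :=
  (hK.compact.isClosed.preimage (SYFub_cont t)).measurableSet

private theorem SYFub_inner {K : Set (Fin (n + 1) → ℝ)} (hK : ConvBody (n + 1) K)
    (g : ℝ → ℝ) (t : ℝ) :
    ∫ y : Fin n → ℝ, K.indicator (fun x => g (x 0)) (Fin.cons t y) = g t * secV K t := by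
  have h1 : ∀ y : Fin n → ℝ, K.indicator (fun x => g (x 0)) (Fin.cons t y) =
      {y : Fin n → ℝ | (Fin.cons t y : Fin (n + 1) → ℝ) ∈ K}.indicator (fun _ => g t) y := by
    intro y
    by_cases h : (Fin.cons t y : Fin (n + 1) → ℝ) ∈ K
    · rw [indicator_of_mem h, indicator_of_mem (show y ∈ _ from h), Fin.cons_zero]
    · rw [indicator_of_notMem h, indicator_of_notMem (show y ∉ _ from h)]
  simp only [h1]
  rw [integral_indicator_const _ (SYFub_meas hK t), smul_eq_mul, mul_comm]
  rfl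

private theorem SYFub_prod {K : Set (Fin (n + 1) → ℝ)} (hK : ConvBody (n + 1) K)
    {g : ℝ → ℝ} (hg : Continuous g) :
    Integrable (fun z : ℝ × (Fin n → ℝ) => K.indicator (fun x => g (x 0)) (Fin.cons z.1 z.2))
      ((volume : Measure ℝ).prod (volume : Measure (Fin n → ℝ))) := by
  have hmp := (volume_preserving_piFinSuccAbove (n := n) (fun _ : Fin (n + 1) => ℝ) 0).symm
  have h0 : IntegrableOn (fun x : Fin (n + 1) → ℝ => g (x 0)) K :=
    (hg.comp (continuous_apply 0)).continuousOn.integrableOn_compact hK.compact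
  have h1 : Integrable (K.indicator fun x : Fin (n + 1) → ℝ => g (x 0)) :=
    h0.integrable_indicator hK.compact.measurableSet
  have h2 := hmp.integrable_comp_of_integrable h1
  have h3 : (K.indicator fun x : Fin (n + 1) → ℝ => g (x 0)) ∘
      (MeasurableEquiv.piFinSuccAbove (fun _ : Fin (n + 1) => ℝ) 0).symm =
      fun z : ℝ × (Fin n → ℝ) => K.indicator (fun x => g (x 0)) (Fin.cons z.1 z.2) := by
    funext z
    rw [Function.comp_apply, SYFub_symm_cons]
  rw [h3] at h2
  exact h2

private theorem SYFub_integrable {K : Set (Fin (n + 1) → ℝ)} (hK : ConvBody (n + 1) K)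
    {g : ℝ → ℝ} (hg : Continuous g) : Integrable fun t => g t * secV K t := by
  have h1 := (SYFub_prod hK hg).integral_prod_left
  simp only [SYFub_inner hK] at h1
  exact h1

private theorem SYFub_int {K : Set (Fin (n + 1) → ℝ)} (hK : ConvBody (n + 1) K)
    {g : ℝ → ℝ} (hg : Continuous g) : ∫ x in K, g (x 0) = ∫ t, g t * secV K t := by
  have hmp := (volume_preserving_piFinSuccAbove (n := n) (fun _ : Fin (n + 1) => ℝ) 0).symm
  rw [← integral_indicator hK.compact.measurableSet]
  have h1 : ∫ x, K.indicator (fun x : Fin (n + 1) → ℝ => g (x 0)) x =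
      ∫ z : ℝ × (Fin n → ℝ), K.indicator (fun x => g (x 0)) (Fin.cons z.1 z.2)
      ∂((volume : Measure ℝ).prod (volume : Measure (Fin n → ℝ))) := by
    have h2 := hmp.integral_comp' (K.indicator fun x : Fin (n + 1) → ℝ => g (x 0))
    rw [← h2]
    simp only [SYFub_symm_cons]
    rfl
  rw [h1, integral_prod _ (SYFub_prod hK hg)]
  simp only [SYFub_inner hK]

/-- symmetric sections -/
private theorem SYFub_neg {K : Set (Fin (n + 1) → ℝ)} (hs : ∀ x ∈ K, -x ∈ K) (t : ℝ) :
    secV K (-t) = secV K t := by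
  unfold secV
  have h : {y : Fin n → ℝ | (Fin.cons (-t) y : Fin (n + 1) → ℝ) ∈ K} =
      -{y : Fin n → ℝ | (Fin.cons t y : Fin (n + 1) → ℝ) ∈ K} := by
    have hc : ∀ (s : ℝ) (y : Fin n → ℝ), (Fin.cons (-s) (-y) : Fin (n + 1) → ℝ) =
        -(Fin.cons s y : Fin (n + 1) → ℝ) := by
      intro s y
      funext i
      refine Fin.cases ?_ (fun i => ?_) i
      · simp
      · simp
    ext y
    constructor
    · intro hy
      have h2 := hs _ hy
      rw [← hc, neg_neg] at h2
      exact h2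
    · intro hy
      have h3 : (Fin.cons t (-y) : Fin (n + 1) → ℝ) ∈ K := hy
      have h2 := hs _ h3
      rw [← hc, neg_neg] at h2
      exact h2
  rw [h, Measure.measure_neg]

private theorem SYFub_zero {K : Set (Fin (n + 1) → ℝ)} (hs : ∀ x ∈ K, -x ∈ K)
    (h1 : ∀ x ∈ K, x 0 ≤ 1) {t : ℝ} (ht : 1 < |t|) : secV K t = 0 := by
  have key : ∀ s : ℝ, 1 < s → secV K s = 0 := by
    intro s hs1
    unfold secV
    have h : {y : Fin n → ℝ | (Fin.cons s y : Fin (n + 1) → ℝ) ∈ K} = ∅ := by
      rw [eq_empty_iff_forall_notMem]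
      intro y hy
      have h2 := h1 _ hy
      rw [Fin.cons_zero] at h2
      linarith
    rw [h]
    simp
  rcases lt_or_ge t 0 with h0 | h0
  · rw [abs_of_neg h0] at ht
    rw [← SYFub_neg hs]
    exact key _ ht
  · rw [abs_of_nonneg h0] at ht
    exact key _ ht

private theorem SYFub_two {K : Set (Fin (n + 1) → ℝ)} (hK : ConvBody (n + 1) K)
    (hs : ∀ x ∈ K, -x ∈ K) (h1 : ∀ x ∈ K, x 0 ≤ 1) {g : ℝ → ℝ} (hg : Continuous g)
    (he : ∀ t, g (-t) = g t) :
    ∫ x in K, g (x 0) = 2 * ∫ t in (0 : ℝ)..1, g t * secV K t := by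
  have hi := SYFub_integrable hK hg
  have h2 : ∫ t, g t * secV K t = ∫ t in (-1 : ℝ)..1, g t * secV K t := by
    rw [intervalIntegral.integral_of_le (by norm_num), ← integral_Icc_eq_integral_Ioc]
    symm
    apply setIntegral_eq_integral_of_forall_compl_eq_zero
    intro t ht
    have h3 : 1 < |t| := by
      by_contra hc
      exact ht (abs_le.1 (not_lt.1 hc))
    rw [SYFub_zero hs h1 h3, mul_zero]
  have h4 : ∫ t in (-1 : ℝ)..0, g t * secV K t = ∫ t in (0 : ℝ)..1, g t * secV K t := by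
    have h5 := intervalIntegral.integral_comp_neg (a := (-1 : ℝ)) (b := 0)
      (fun t => g t * secV K t)
    simp only [he, SYFub_neg hs, neg_zero, neg_neg] at h5
    exact h5
  rw [SYFub_int hK hg, h2, ← intervalIntegral.integral_add_adjacent_intervals
    (b := (0 : ℝ)) hi.intervalIntegrable hi.intervalIntegrable, h4]
  ring

theorem sec_int {K : Set (Fin (n + 1) → ℝ)} (hK : ConvBody (n + 1) K) (a b : ℝ) :
    IntervalIntegrable (secV K) volume a b := by
  have h := (SYFub_integrable hK (g := fun _ => 1) continuous_const).intervalIntegrable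
    (a := a) (b := b)
  simp only [one_mul] at h
  exact h

theorem sec_vol {K : Set (Fin (n + 1) → ℝ)} (hK : ConvBody (n + 1) K) (hs : ∀ x ∈ K, -x ∈ K)
    (h1 : ∀ x ∈ K, x 0 ≤ 1) : (volume K).toReal = 2 * ∫ t in (0 : ℝ)..1, secV K t := by
  have h := SYFub_two hK hs h1 (g := fun _ => 1) continuous_const (fun _ => rfl)
  simp only [one_mul] at h
  rw [← h]
  simp [Measure.real]

theorem sec_mom {K : Set (Fin (n + 1) → ℝ)} (hK : ConvBody (n + 1) K) (hs : ∀ x ∈ K, -x ∈ K)
    (h1 : ∀ x ∈ K, x 0 ≤ 1) : ∫ x in K, x 0 ^ 2 = 2 * ∫ t in (0 : ℝ)..1, t ^ 2 * secV K t :=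
  SYFub_two hK hs h1 (g := fun t => t ^ 2) (by fun_prop) (fun t => by ring)

end Vale.Agent.P254U
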