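import Mathlib

/-!
P254U/SY/Num: the numerical inequality.
`m0 = 1 - b + b^2/3`, `m2 = 1/3 - b/2 + b^2/5`.  To show `m2^3 < (9/2000) a^2 m0^5` (then multiply by `a^3`).
Case `b ≤ 0.34`: `a^2 ≥ π^2 > 9.869`, and `m2^3 < 0.0444 m0^5` on `[0, 0.34]`.
Case `b ≥ 0.34`: `a^2 m0^2 ≥ 4 π^2 / 9`, so `(9/2000) a^2 m0^5 ≥ (π^2/500) m0^3 > 0.01973 m0^3`, and
`m2 ≤ 0.27 m0` (`-19/300 + 0.23 b - 0.11 b^2 ≥ 0` on `[0.34, 1]`), `0.27^3 = 0.019683`.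
-/

namespace Vale.Agent.P254U

/-- Bernstein form on `[0, 17/50]` -/
private theorem num_bern (b : ℝ) : 444 / 10000 * (1 - b + b ^ 2 / 3) ^ 5 -
    (1 / 3 - b / 2 + b ^ 2 / 5) ^ 3 =
        (19414062500000000 / 54431835312123 : ℝ) * b ^ 0 * (17 / 50 - b) ^ 10 +
        (144535156250000000 / 54431835312123 : ℝ) * b ^ 1 * (17 / 50 - b) ^ 9 +
        (54283437500000000 / 6047981701347 : ℝ) * b ^ 2 * (17 / 50 - b) ^ 8 +
        (330607144531250000 / 18143945104041 : ℝ) * b ^ 3 * (17 / 50 - b) ^ 7 +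
        (448611375593750000 / 18143945104041 : ℝ) * b ^ 4 * (17 / 50 - b) ^ 6 +
        (142376551901125000 / 6047981701347 : ℝ) * b ^ 5 * (17 / 50 - b) ^ 5 +
        (32223433215837500 / 2015993900449 : ℝ) * b ^ 6 * (17 / 50 - b) ^ 4 +
        (138882160690397500 / 18143945104041 : ℝ) * b ^ 7 * (17 / 50 - b) ^ 3 +
        (134586736205038595 / 54431835312123 : ℝ) * b ^ 8 * (17 / 50 - b) ^ 2 +
        (264059834624316511 / 544318353121230 : ℝ) * b ^ 9 * (17 / 50 - b) ^ 1 +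
        (17846044643759737363 / 408238764840922500 : ℝ) * b ^ 10 * (17 / 50 - b) ^ 0 := by
  ring

private theorem num_small {b : ℝ} (hb0 : 0 ≤ b) (hb : b ≤ 17 / 50) :
    (1 / 3 - b / 2 + b ^ 2 / 5) ^ 3 ≤ 444 / 10000 * (1 - b + b ^ 2 / 3) ^ 5 := by
  have h := num_bern b
  have hb' : 0 ≤ 17 / 50 - b := by linarith
  have h2 : 0 ≤ 444 / 10000 * (1 - b + b ^ 2 / 3) ^ 5 - (1 / 3 - b / 2 + b ^ 2 / 5) ^ 3 := by
    rw [h]
    positivity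
  linarith

theorem sy_num {a b : ℝ} (ha : Real.pi ≤ a) (hb0 : 0 ≤ b) (hb1 : b ≤ 1)
    (hI : 2 * Real.pi / 3 ≤ a * (1 - b + b ^ 2 / 3)) :
    (a * (1 / 3 - b / 2 + b ^ 2 / 5)) ^ 3 < 9 / 2000 * (a * (1 - b + b ^ 2 / 3)) ^ 5 := by
  have hpi : (3.1415 : ℝ) < Real.pi := Real.pi_gt_d4
  have ha0 : 0 < a := by linarith
  have hm0 : 0 < 1 - b + b ^ 2 / 3 := by nlinarith
  have hm2 : 0 < 1 / 3 - b / 2 + b ^ 2 / 5 := by nlinarith
  have key : (1 / 3 - b / 2 + b ^ 2 / 5) ^ 3 < 9 / 2000 * a ^ 2 * (1 - b + b ^ 2 / 3) ^ 5 := by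
    rcases le_total b (17 / 50) with h | h
    · have h1 := num_small hb0 h
      have h2 : (9.869 : ℝ) < a ^ 2 := by nlinarith
      have h3 : 0 < (1 - b + b ^ 2 / 3) ^ 5 := by positivity
      have h4 : (444 / 10000 : ℝ) < 9 / 2000 * a ^ 2 := by linarith
      exact h1.trans_lt (mul_lt_mul_of_pos_right h4 h3)
    · have h1 : 1 / 3 - b / 2 + b ^ 2 / 5 ≤ 27 / 100 * (1 - b + b ^ 2 / 3) := by nlinarith
      have h2 : (1 / 3 - b / 2 + b ^ 2 / 5) ^ 3 ≤ (27 / 100 * (1 - b + b ^ 2 / 3)) ^ 3 :=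
        pow_le_pow_left₀ hm2.le h1 3
      have h3 : (4.386 : ℝ) < (a * (1 - b + b ^ 2 / 3)) ^ 2 := by nlinarith
      have h4 : 0 < (1 - b + b ^ 2 / 3) ^ 3 := by positivity
      have h5 : (27 / 100 * (1 - b + b ^ 2 / 3)) ^ 3 = 19683 / 1000000 * (1 - b + b ^ 2 / 3) ^ 3 := by
        ring
      have h6 : 9 / 2000 * a ^ 2 * (1 - b + b ^ 2 / 3) ^ 5
          = 9 / 2000 * (a * (1 - b + b ^ 2 / 3)) ^ 2 * (1 - b + b ^ 2 / 3) ^ 3 := by ring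
      have h7 : (19683 / 1000000 : ℝ) < 9 / 2000 * (a * (1 - b + b ^ 2 / 3)) ^ 2 := by linarith
      rw [h6]
      rw [h5] at h2
      exact h2.trans_lt (mul_lt_mul_of_pos_right h7 h4)
  have e1 : (a * (1 / 3 - b / 2 + b ^ 2 / 5)) ^ 3 = a ^ 3 * (1 / 3 - b / 2 + b ^ 2 / 5) ^ 3 := by
    ring
  have e2 : 9 / 2000 * (a * (1 - b + b ^ 2 / 3)) ^ 5
      = a ^ 3 * (9 / 2000 * a ^ 2 * (1 - b + b ^ 2 / 3) ^ 5) := by ring
  rw [e1, e2]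
  exact mul_lt_mul_of_pos_left key (by positivity)

end Vale.Agent.P254U
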