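import Mathlib

/-!
P254U/SY/One: a one-dimensional comparison.
Choose `b ∈ [0,1]` with `∫_0^1 φ^2 = φ(0)^2 ∫_0^1 (1 - b t)^2 dt = φ(0)^2 (1 - b + b^2/3)`: intermediate
values, since `φ(0)^2 / 3 ≤ ∫ φ^2 ≤ φ(0)^2` (`φ(t) ≥ (1-t) φ(0)` by concavity and `φ(1) ≥ 0`; `φ ≤ φ(0)`).
`ψ(t) = φ(0) (1 - b t)`.  `φ - ψ` is concave and vanishes at `0`: if `φ(t) < ψ(t)` then `φ < ψ` on `[t, 1]`.
With `c = sSup {t ∈ [0,1] : ψ(t) ≤ φ(t)}`: `(t^2 - c^2) (φ^2 - ψ^2) ≤ 0` for `t ≠ c`, and `∫ (φ^2 - ψ^2) = 0`,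
so `∫ t^2 φ^2 ≤ ∫ t^2 ψ^2 = φ(0)^2 (1/3 - b/2 + b^2/5)`.
-/

open MeasureTheory Set

namespace Vale.Agent.P254U

theorem sy_one {φ : ℝ → ℝ} (hφ : ConcaveOn ℝ (Icc (0 : ℝ) 1) φ)
    (h0 : ∀ t ∈ Icc (0 : ℝ) 1, 0 ≤ φ t) (hmax : ∀ t ∈ Icc (0 : ℝ) 1, φ t ≤ φ 0)
    (hint : IntervalIntegrable (fun t => φ t ^ 2) volume 0 1) :
    ∃ b ∈ Icc (0 : ℝ) 1, ∫ t in (0 : ℝ)..1, φ t ^ 2 = φ 0 ^ 2 * (1 - b + b ^ 2 / 3) ∧
      ∫ t in (0 : ℝ)..1, t ^ 2 * φ t ^ 2 ≤ φ 0 ^ 2 * (1 / 3 - b / 2 + b ^ 2 / 5) := by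
  have z0 : (0 : ℝ) ∈ Icc (0 : ℝ) 1 := ⟨le_rfl, zero_le_one⟩
  have z1 : (1 : ℝ) ∈ Icc (0 : ℝ) 1 := ⟨zero_le_one, le_rfl⟩
  have ha : 0 ≤ φ 0 := h0 0 z0
  have psiInt : ∀ b : ℝ, ∫ t in (0 : ℝ)..1, (φ 0 * (1 - b * t)) ^ 2 =
      φ 0 ^ 2 * (1 - b + b ^ 2 / 3) := by
    intro b
    have e : ∀ t : ℝ, (φ 0 * (1 - b * t)) ^ 2 =
        φ 0 ^ 2 * (1 - 2 * b * t + b ^ 2 * t ^ 2) := fun t => by ring
    simp_rw [e]
    rw [intervalIntegral.integral_const_mul, intervalIntegral.integral_add,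
      intervalIntegral.integral_sub, intervalIntegral.integral_const_mul,
      intervalIntegral.integral_const_mul, integral_id, integral_pow, intervalIntegral.integral_const]
    · norm_num
      left
      ring
    · exact (continuous_const).intervalIntegrable _ _
    · exact (by fun_prop : Continuous fun t : ℝ => 2 * b * t).intervalIntegrable _ _
    · exact (by fun_prop : Continuous fun t : ℝ => 1 - 2 * b * t).intervalIntegrable _ _
    · exact (by fun_prop : Continuous fun t : ℝ => b ^ 2 * t ^ 2).intervalIntegrable _ _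
  have psiInt2 : ∀ b : ℝ, ∫ t in (0 : ℝ)..1, t ^ 2 * (φ 0 * (1 - b * t)) ^ 2 =
      φ 0 ^ 2 * (1 / 3 - b / 2 + b ^ 2 / 5) := by
    intro b
    have e : ∀ t : ℝ, t ^ 2 * (φ 0 * (1 - b * t)) ^ 2 =
        φ 0 ^ 2 * (t ^ 2 - 2 * b * t ^ 3 + b ^ 2 * t ^ 4) := fun t => by ring
    simp_rw [e]
    rw [intervalIntegral.integral_const_mul, intervalIntegral.integral_add,
      intervalIntegral.integral_sub, intervalIntegral.integral_const_mul,
      intervalIntegral.integral_const_mul, integral_pow, integral_pow, integral_pow]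
    · norm_num
      left
      ring
    · exact (by fun_prop : Continuous fun t : ℝ => t ^ 2).intervalIntegrable _ _
    · exact (by fun_prop : Continuous fun t : ℝ => 2 * b * t ^ 3).intervalIntegrable _ _
    · exact (by fun_prop : Continuous fun t : ℝ => t ^ 2 - 2 * b * t ^ 3).intervalIntegrable _ _
    · exact (by fun_prop : Continuous fun t : ℝ => b ^ 2 * t ^ 4).intervalIntegrable _ _
  have hlow : ∀ t ∈ Icc (0 : ℝ) 1, φ 0 * (1 - 1 * t) ≤ φ t := by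
    intro t ht
    have h := hφ.2 z0 z1 (by linarith [ht.2] : (0 : ℝ) ≤ 1 - t) ht.1 (by ring)
    simp only [smul_eq_mul, mul_zero, mul_one, zero_add] at h
    have h1 := mul_nonneg ht.1 (h0 1 z1)
    nlinarith
  have hI1 : φ 0 ^ 2 * (1 - 1 + 1 ^ 2 / 3) ≤ ∫ t in (0 : ℝ)..1, φ t ^ 2 := by
    rw [← psiInt 1]
    refine intervalIntegral.integral_mono_on zero_le_one ?_ hint ?_
    · exact (by fun_prop : Continuous fun t : ℝ => (φ 0 * (1 - 1 * t)) ^ 2).intervalIntegrable _ _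
    · intro t ht
      exact pow_le_pow_left₀ (mul_nonneg ha (by linarith [ht.2])) (hlow t ht) 2
  have hI0 : ∫ t in (0 : ℝ)..1, φ t ^ 2 ≤ φ 0 ^ 2 * (1 - 0 + 0 ^ 2 / 3) := by
    rw [← psiInt 0]
    refine intervalIntegral.integral_mono_on zero_le_one hint ?_ ?_
    · exact (by fun_prop : Continuous fun t : ℝ => (φ 0 * (1 - 0 * t)) ^ 2).intervalIntegrable _ _
    · intro t ht
      refine pow_le_pow_left₀ (h0 t ht) ?_ 2
      have := hmax t ht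
      linarith
  have hcont : ContinuousOn (fun b : ℝ => φ 0 ^ 2 * (1 - b + b ^ 2 / 3)) (Icc (0 : ℝ) 1) := by
    fun_prop
  obtain ⟨b, hb, hbI⟩ := intermediate_value_Icc' zero_le_one hcont ⟨hI1, hI0⟩
  refine ⟨b, hb, hbI.symm, ?_⟩
  set S : Set ℝ := {t | t ∈ Icc (0 : ℝ) 1 ∧ φ 0 * (1 - b * t) ≤ φ t} with hS
  have hS0 : (0 : ℝ) ∈ S := ⟨z0, by simp⟩
  have hSb : BddAbove S := ⟨1, fun t ht => ht.1.2⟩
  set c := sSup S with hc
  have hc0 : 0 ≤ c := le_csSup hSb hS0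
  have key : ∀ t ∈ Icc (0 : ℝ) 1,
      t ^ 2 * φ t ^ 2 ≤ t ^ 2 * (φ 0 * (1 - b * t)) ^ 2 +
        c ^ 2 * (φ t ^ 2 - (φ 0 * (1 - b * t)) ^ 2) := by
    intro t ht
    have hbt : b * t ≤ 1 := by
      have h1 := mul_le_mul hb.2 ht.2 ht.1 zero_le_one
      linarith
    have hpsi : 0 ≤ φ 0 * (1 - b * t) := mul_nonneg ha (by linarith)
    rcases lt_trichotomy t c with h | h | h
    · obtain ⟨t', ht', htt'⟩ := exists_lt_of_lt_csSup ⟨0, hS0⟩ h
      have ht'0 : 0 < t' := lt_of_le_of_lt ht.1 htt'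
      have hfrac : t / t' ≤ 1 := (div_le_one ht'0).2 htt'.le
      have hfrac0 : 0 ≤ t / t' := div_nonneg ht.1 ht'0.le
      have h3 := hφ.2 z0 ht'.1 (by linarith : (0 : ℝ) ≤ 1 - t / t') hfrac0 (by ring)
      simp only [smul_eq_mul, mul_zero, zero_add] at h3
      rw [div_mul_cancel₀ _ ht'0.ne'] at h3
      have h4 : φ 0 * (1 - b * t) ≤ φ t := by
        have h5 := mul_le_mul_of_nonneg_left ht'.2 hfrac0
        have h6 : t / t' * (φ 0 * (1 - b * t')) = φ 0 * (t / t') - φ 0 * b * t := by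
          field_simp
        rw [h6] at h5
        nlinarith
      have h7 : (φ 0 * (1 - b * t)) ^ 2 ≤ φ t ^ 2 := pow_le_pow_left₀ hpsi h4 2
      have h8 : t ^ 2 ≤ c ^ 2 := pow_le_pow_left₀ ht.1 h.le 2
      nlinarith [mul_nonneg (sub_nonneg.2 h8) (sub_nonneg.2 h7)]
    · rw [h]
      linarith
    · have h4 : φ t < φ 0 * (1 - b * t) := by
        by_contra hcon
        exact absurd (le_csSup hSb (show t ∈ S from ⟨ht, not_lt.1 hcon⟩)) (not_le.2 h)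
      have h7 : φ t ^ 2 ≤ (φ 0 * (1 - b * t)) ^ 2 := pow_le_pow_left₀ (h0 t ht) h4.le 2
      have h8 : c ^ 2 ≤ t ^ 2 := pow_le_pow_left₀ hc0 h.le 2
      nlinarith [mul_nonneg (sub_nonneg.2 h8) (sub_nonneg.2 h7)]
  have hpi : IntervalIntegrable (fun t : ℝ => (φ 0 * (1 - b * t)) ^ 2) volume 0 1 :=
    (by fun_prop : Continuous fun t : ℝ => (φ 0 * (1 - b * t)) ^ 2).intervalIntegrable _ _
  have hpi2 : IntervalIntegrable (fun t : ℝ => t ^ 2 * (φ 0 * (1 - b * t)) ^ 2) volume 0 1 :=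
    (by fun_prop : Continuous fun t : ℝ => t ^ 2 * (φ 0 * (1 - b * t)) ^ 2).intervalIntegrable _ _
  have hint2 : IntervalIntegrable (fun t : ℝ => t ^ 2 * φ t ^ 2) volume 0 1 :=
    hint.continuousOn_mul (by fun_prop)
  have hmono := intervalIntegral.integral_mono_on zero_le_one hint2
    (hpi2.add ((hint.sub hpi).const_mul (c ^ 2))) key
  rw [intervalIntegral.integral_add hpi2 ((hint.sub hpi).const_mul (c ^ 2)),
    intervalIntegral.integral_const_mul, intervalIntegral.integral_sub hint hpi, psiInt b,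
    psiInt2 b] at hmono
  have hbI' : ∫ t in (0 : ℝ)..1, φ t ^ 2 = φ 0 ^ 2 * (1 - b + b ^ 2 / 3) := hbI.symm
  rw [hbI', sub_self, mul_zero, add_zero] at hmono
  exact hmono

end Vale.Agent.P254U
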