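import Vale.Agent.Lib.P254U.SY.Pos
import Vale.Agent.Lib.P254U.SY.Fub
import Vale.Agent.Lib.P254U.SY.BrunnA
import Vale.Agent.Lib.P254U.SY.BrunnB
import Vale.Agent.Lib.P254U.SY.One
import Vale.Agent.Lib.P254U.SY.Num

/-!
P254U/SY/Main: assembly.  With `L` from `sy_pos`, `I0 = ∫_0^1 secV L`, `I2 = ∫_0^1 t^2 secV L`:
`s = covM L 0 0 = (∫_L x_0^2) / |L| = I2 / I0` (`covM_form_sym` with `w = e_0`, or `cen_zero`),
`sy_one` for `φ = √(secV L)`, `sy_num` with `a = secV L 0`: `I2^3 < (9/2000) I0^5` (`I2 ≤ a m2`, `I0 = a m0`,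
`2 I0 = |L| ≥ 4π/3`), so `s^3 < (9/2000) I0^2 = (9/8000) |L|^2`.
`Rat L = 4 det (20 covM L) / (6 |L|)^2 = (8000/9) s^3 / |L|^2 < 1`.
-/

open MeasureTheory Set

namespace Vale.Agent.P254U

private theorem main_sy_final {V I0 I2 s R : ℝ} (hI0 : 0 < I0) (hV : V = 2 * I0)
    (hs : s * I0 = I2) (h : I2 ^ 3 < 9 / 2000 * I0 ^ 5) (hR : s ^ 3 / V ^ 2 = R * (9 / 8000)) :
    R < 1 := by
  have h1 : s ^ 3 * I0 ^ 3 < 9 / 2000 * I0 ^ 2 * I0 ^ 3 := by
    rw [← mul_pow, hs]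
    calc I2 ^ 3 < 9 / 2000 * I0 ^ 5 := h
      _ = 9 / 2000 * I0 ^ 2 * I0 ^ 3 := by ring
  have h2 : s ^ 3 < 9 / 2000 * I0 ^ 2 := lt_of_mul_lt_mul_right h1 (by positivity)
  have h3 : s ^ 3 = R * (9 / 8000) * V ^ 2 := by
    rw [← hR, div_mul_cancel₀]
    rw [hV]
    positivity
  rw [h3, hV] at h2
  have h4 : 0 < I0 ^ 2 := by positivity
  nlinarith

theorem rat_sym3 {K : Set (Fin 3 → ℝ)} (hK : ConvBody 3 K) (hs : ∀ x ∈ K, -x ∈ K) : Rat K < 1 := by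
  obtain ⟨L, hL, hLs, hRat, hB, h1, s, hs0, hcov⟩ := sy_pos (n := 2) hK hs
  rw [← hRat]
  have hVpos : 0 < (volume L).toReal := convBody_vol_pos hL
  have hV := sec_vol hL hLs h1
  have hM := sec_mom hL hLs h1
  obtain ⟨I0, hI0def⟩ : ∃ I0, I0 = ∫ t in (0 : ℝ)..1, secV L t := ⟨_, rfl⟩
  obtain ⟨I2, hI2def⟩ : ∃ I2, I2 = ∫ t in (0 : ℝ)..1, t ^ 2 * secV L t := ⟨_, rfl⟩
  rw [← hI0def] at hV
  rw [← hI2def] at hM
  have hI0 : 0 < I0 := by linarith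
  have hsq : (fun t => Real.sqrt (secV L t) ^ 2) = secV L :=
    funext fun t => Real.sq_sqrt ENNReal.toReal_nonneg
  have hsI : s * I0 = I2 := by
    have e1 : covM L 0 0 = s := by
      rw [hcov]
      simp
    have e2 : covM L 0 0 = (∫ x in L, x 0 ^ 2) / (volume L).toReal := by
      unfold covM
      congr 1
      refine integral_congr_ae (Filter.Eventually.of_forall fun x => ?_)
      simp only [cen_zero hL hLs, sub_zero]
      ring
    rw [e1, hM, hV] at e2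
    rw [e2]
    field_simp
  obtain ⟨b, hb, hb0, hb2⟩ := sy_one (sec_concave hL hB) (fun t _ => Real.sqrt_nonneg _)
    (fun t ht => Real.sqrt_le_sqrt (sec_le hL hLs hB ht))
    (by rw [hsq]; exact sec_int hL 0 1)
  have ha : Real.sqrt (secV L 0) ^ 2 = secV L 0 := Real.sq_sqrt ENNReal.toReal_nonneg
  have hb0' : I0 = secV L 0 * (1 - b + b ^ 2 / 3) := by
    rw [hI0def, ← ha, ← hb0]
    refine intervalIntegral.integral_congr fun t _ => ?_
    exact (congrFun hsq t).symm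
  have hb2' : I2 ≤ secV L 0 * (1 / 3 - b / 2 + b ^ 2 / 5) := by
    rw [hI2def, ← ha]
    refine le_trans (le_of_eq ?_) hb2
    refine intervalIntegral.integral_congr fun t _ => ?_
    change t ^ 2 * secV L t = t ^ 2 * Real.sqrt (secV L t) ^ 2
    exact congrArg (fun z => t ^ 2 * z) (congrFun hsq t).symm
  have hI2 : 0 < I2 := by rw [← hsI]; positivity
  have hvol := sy_vol hL hB
  have hnum := sy_num (sec_zero hL hB) hb.1 hb.2 (by rw [← hb0']; linarith)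
  have h3 : I2 ^ 3 < 9 / 2000 * I0 ^ 5 := by
    rw [hb0']
    exact lt_of_le_of_lt (pow_le_pow_left₀ hI2.le hb2' 3) hnum
  have hdet := det_covM_eq_Rat hL
  have hdet2 : (covM L).det = s ^ 3 := by
    rw [hcov, Matrix.det_smul, Matrix.det_one, mul_one, Fintype.card_fin]
  rw [hdet2] at hdet
  refine main_sy_final hI0 hV hsI h3 ?_
  rw [hdet]
  norm_num [Nat.factorial]

theorem rat_centsym3 {K : Set (Fin 3 → ℝ)} (hK : ConvBody 3 K) (c : Fin 3 → ℝ)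
    (hs : ∀ x ∈ K, (2 : ℝ) • c - x ∈ K) : Rat K < 1 := by
  obtain ⟨h1, h2⟩ := Rat_affine (n := 3) (by norm_num) hK
    (AffineEquiv.constVAdd ℝ (Fin 3 → ℝ) (-c))
  rw [← h2]
  refine rat_sym3 h1 ?_
  rintro _ ⟨x, hx, rfl⟩
  refine ⟨(2 : ℝ) • c - x, hs x hx, ?_⟩
  simp only [AffineEquiv.constVAdd_apply, vadd_eq_add]
  rw [two_smul]
  abel

end Vale.Agent.P254U
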